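import Vale.Agent.P281.H713.TZ.S3

/-!
# P281, surfaces: the inequality of Q1 (definitions for the statement)
-/

open Set Vale.Agent.P281.H713.TZ.S
open scoped Manifold ContDiff

noncomputable section

namespace Vale.Agent.P281.H511.Surf

variable (E E' E₀ : Type) [NormedAddCommGroup E] [NormedSpace ℂ E] [NormedAddCommGroup E']
  [NormedSpace ℂ E'] [NormedAddCommGroup E₀] [NormedSpace ℂ E₀] {X Y F : Type}
  [tX : TopologicalSpace X] [cX : ChartedSpace E X] [tY : TopologicalSpace Y]
  [cY : ChartedSpace E' Y] [TopologicalSpace F] [ChartedSpace E₀ F]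

/-- `X` is a compact connected complex manifold, `Y` is a complex manifold, `f : X → Y` is
holomorphic and surjective, with connected fibres, and `Δ` is a rational SNC boundary of `X`. -/
structure IsFibration (f : X → Y) (Δ : Set X → ℝ) : Prop where
  hausdorff : T2Space X ∧ T2Space Y
  compact : CompactSpace X
  connected : ConnectedSpace X
  manifold : IsManifold 𝓘(ℂ, E) ω X ∧ IsManifold 𝓘(ℂ, E') ω Y
  hol : ContMDiff 𝓘(ℂ, E) 𝓘(ℂ, E') ω f
  fibres : ∀ y, IsConnected (f ⁻¹' {y})
  snc : J.IsSNC E Δ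

/-- `i : F → X` is a holomorphic immersion of a compact connected complex manifold in the fibre of
`f` over `y` (for instance: the inclusion of this fibre). -/
structure IsFibre (f : X → Y) (y : Y) (i : F → X) : Prop where
  compact : CompactSpace F
  connected : ConnectedSpace F
  manifold : IsManifold 𝓘(ℂ, E₀) ω F
  hol : ContMDiff 𝓘(ℂ, E₀) 𝓘(ℂ, E) ω i
  immersion : ∀ t, Function.Injective (mfderiv 𝓘(ℂ, E₀) 𝓘(ℂ, E) i t)
  fibre : ∀ t, f (i t) = y

/-- `κ(F, K_F + Δ|F) + κ(f | Δ) ≤ κ(X, K_X + Δ)` -/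
def Q1 (f : X → Y) (Δ : Set X → ℝ) (i : F → X) : Prop :=
  kodR E E₀ i Δ + kap E E' ⟨X, Y, tX, tY, cX, cY, f, Δ⟩ ≤ kodX E Δ

end Vale.Agent.P281.H511.Surf
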