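import Vale.Agent.P281.H511.Loc

/-!
# P281, surfaces (helper511): points of a curve are prime divisors
-/

open Set Filter Metric Vale.Agent.P281 Vale.Agent.P281.H713 Vale.Agent.P281.H64
open scoped Topology ContDiff Manifold

noncomputable section

namespace Vale.Agent.P281.H511.Surf

variable {Y : Type} [TopologicalSpace Y] [T2Space Y] [ChartedSpace (Cm 1) Y]
  [IsManifold 𝓘(ℂ, Cm 1) ω Y]

/-- a coordinate at `y`, which vanishes at `y` -/
def ptEq (y : Y) (x : Y) : ℂ := chartAt (Cm 1) y x 0 - chartAt (Cm 1) y y 0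

theorem ptEq_self (y : Y) : ptEq y y = 0 := sub_self _

theorem ptEq_hol (y : Y) : HolV (Cm 1) (ptEq y) y :=
  HolV.comp_contDiff (G := fun v : Cm 1 => v 0 - chartAt (Cm 1) y y 0) (by fun_prop)
    (HolV.chart (mem_chart_source _ y))

theorem ptEq_dif (y : Y) : J.dif (Cm 1) (ptEq y) y ≠ 0 := by
  have hy := mem_chart_source (Cm 1) y
  have hdet : (dV (Cm 1) (chartAt (Cm 1) y : Y → Cm 1) y).det ≠ 0 := jac_chart_ne_zero hy
  obtain ⟨ξ, hξ⟩ : ∃ ξ, dV (Cm 1) (chartAt (Cm 1) y : Y → Cm 1) y ξ = fun _ => 1 :=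
    ⟨(LinearMap.equivOfDetNeZero
      ((dV (Cm 1) (chartAt (Cm 1) y : Y → Cm 1) y : Cm 1 →L[ℂ] Cm 1) : Cm 1 →ₗ[ℂ] Cm 1)
        hdet).symm (fun _ => 1),
      (LinearMap.equivOfDetNeZero
      ((dV (Cm 1) (chartAt (Cm 1) y : Y → Cm 1) y : Cm 1 →L[ℂ] Cm 1) : Cm 1 →ₗ[ℂ] Cm 1)
        hdet).apply_symm_apply (fun _ => 1)⟩
  intro h
  have h1 : dV (Cm 1) (ptEq y) y = (fderiv ℂ (fun v : Cm 1 => v 0 - chartAt (Cm 1) y y 0)
      (chartAt (Cm 1) y y)).comp (dV (Cm 1) (chartAt (Cm 1) y : Y → Cm 1) y) :=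
    dV_comp_contDiff (G := fun v : Cm 1 => v 0 - chartAt (Cm 1) y y 0) (by fun_prop)
      (HolV.chart hy)
  have h2 : HasFDerivAt (fun v : Cm 1 => v 0 - chartAt (Cm 1) y y 0)
      (ContinuousLinearMap.proj (R := ℂ) (φ := fun _ : Fin 1 => ℂ) 0) (chartAt (Cm 1) y y) :=
    (ContinuousLinearMap.proj (R := ℂ) (φ := fun _ : Fin 1 => ℂ) 0).hasFDerivAt.sub_const _
  rw [h2.fderiv] at h1
  have h3 := congrArg (fun L : Cm 1 →L[ℂ] ℂ => L ξ) (h1.symm.trans (h : dV (Cm 1) (ptEq y) y = 0))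
  have h4 : dV (Cm 1) (chartAt (Cm 1) y : Y → Cm 1) y ξ 0 = 0 := h3
  rw [hξ] at h4
  exact one_ne_zero h4

theorem ptEq_iff (y : Y) : ∀ᶠ x in 𝓝 y, x ∈ ({y} : Set Y) ↔ ptEq y x = 0 := by
  filter_upwards [(chartAt (Cm 1) y).open_source.mem_nhds (mem_chart_source _ y)] with x hx
  constructor
  · rintro rfl
    exact ptEq_self x
  · intro h
    refine (chartAt (Cm 1) y).injOn hx (mem_chart_source _ _) ?_
    funext i
    rw [Subsingleton.elim i 0]
    exact sub_eq_zero.1 h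

theorem isLocalEq_pt (y : Y) : J.IsLocalEq (Cm 1) {y} (ptEq y) y :=
  IsLocalEq.of_dif_ne (ptEq_hol y) (ptEq_iff y) (ptEq_dif y)

/-- a point of a curve is a prime divisor -/
theorem isPrime_pt (y : Y) : J.IsPrime (Cm 1) {y} := by
  refine ⟨isClosed_singleton, fun x => ?_, ?_⟩
  · by_cases hx : x = y
    · rw [hx]
      exact ⟨_, isLocalEq_pt y⟩
    · refine ⟨fun _ => 1, {y}ᶜ, isClosed_singleton.isOpen_compl, hx, fun z _ => ?_,
        fun z hz => ?_, ?_⟩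
      · exact contMDiffAt_const
      · exact ⟨fun h => absurd h hz, fun h => absurd h one_ne_zero⟩
      · rintro z ⟨h1, h2⟩
        exact absurd h1 h2
  · have e : {x | x ∈ ({y} : Set Y) ∧ ∃ g, J.IsLocalEq (Cm 1) {y} g x ∧
        J.dif (Cm 1) g x ≠ 0} = {y} := by
      ext x
      constructor
      · exact fun h => h.1
      · rintro rfl
        exact ⟨rfl, ptEq x, isLocalEq_pt x, ptEq_dif x⟩
    rw [e]
    exact isConnected_singleton

end Vale.Agent.P281.H511.Surf
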