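import Vale.Agent.P267.H823.Puiseux
import Vale.Agent.P267.H823.Weier
import Vale.Agent.P281.H511.Mob

/-!
# P281, surfaces (helper511): critical points near a critical point have the same value
-/

open Filter Set Metric Polynomial
open scoped Topology

noncomputable section

namespace Vale.Agent.P281.H511.Surf

theorem crit0 {G : ℂ × ℂ → ℂ} (hG : AnalyticAt ℂ G 0) {v : ℂ × ℂ} {b : ℕ} {u : ℂ → ℂ}
    (hu : AnalyticAt ℂ u 0) (hu0 : u 0 ≠ 0)
    (hreg : ∀ᶠ s in 𝓝 (0 : ℂ), fderiv ℂ G (s, 0) v = s ^ b * u s) :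
    ∀ᶠ x in 𝓝 (0 : ℂ × ℂ), fderiv ℂ G x = 0 → G x = G 0 := by
  have hD : AnalyticAt ℂ (fderiv ℂ G) 0 := hG.fderiv
  have hF : AnalyticAt ℂ (fun z => fderiv ℂ G z v) ((0 : ℂ), (0 : ℂ)) :=
    ((ContinuousLinearMap.apply ℂ ℂ v).analyticAt _).comp hD
  obtain ⟨P, w, h1, h2, h3, h4, h5, h6⟩ := P267.H823.weierstrass (F := fun z => fderiv ℂ G z v)
    hF hu hu0 hreg
  obtain ⟨N, hN, β, h7, h8⟩ := P267.H823.puiseux h1 h2
  have hβ0 : ∀ i, β i 0 = 0 := by
    intro i
    have h9 := h8.self_of_nhds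
    rw [zero_pow hN.ne', h3] at h9
    have h10 := congrArg (Polynomial.eval (β i 0)) h9
    rw [eval_pow, eval_X, eval_prod, Finset.prod_eq_zero (Finset.mem_univ i) (by simp)] at h10
    exact pow_eq_zero_iff (n := b) (by rintro rfl; exact i.elim0) |>.1 h10
  have key : ∀ i, ∀ᶠ s in 𝓝 (0 : ℂ), fderiv ℂ G (β i s, s ^ N) = 0 → G (β i s, s ^ N) = G 0 := by
    intro i
    set γ : ℂ → ℂ × ℂ := fun s => (β i s, s ^ N) with hγ
    have hγa : AnalyticAt ℂ γ 0 := (h7 i).prod (analyticAt_id.pow N)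
    have hγ0 : γ 0 = 0 := by rw [hγ]; simp [hβ0, hN.ne']
    have hDa : AnalyticAt ℂ (fun s => fderiv ℂ G (γ s)) 0 :=
      AnalyticAt.comp_of_eq hD hγa hγ0
    rcases hDa.eventually_eq_zero_or_eventually_ne_zero with h | h
    · have hcomp : AnalyticAt ℂ (fun s => G (γ s)) 0 := AnalyticAt.comp_of_eq hG hγa hγ0
      have hder : ∀ᶠ s in 𝓝 (0 : ℂ), DifferentiableAt ℂ (fun s => G (γ s)) s ∧
          deriv (fun s => G (γ s)) s = 0 := by
        have a1 : ∀ᶠ s in 𝓝 (0 : ℂ), DifferentiableAt ℂ G (γ s) := by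
          have : ∀ᶠ x in 𝓝 (γ 0), DifferentiableAt ℂ G x := by
            rw [hγ0]
            exact hG.eventually_analyticAt.mono fun x hx => hx.differentiableAt
          exact hγa.continuousAt.eventually this
        filter_upwards [h, a1, hγa.eventually_analyticAt] with s b1 b2 b3
        have b4 : HasDerivAt (fun s => G (γ s)) (fderiv ℂ G (γ s) (deriv γ s)) s :=
          b2.hasFDerivAt.comp_hasDerivAt s b3.differentiableAt.hasDerivAt
        refine ⟨b4.differentiableAt, ?_⟩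
        rw [b4.deriv, b1]
        rfl
      obtain ⟨ε, hε, hb⟩ := Metric.eventually_nhds_iff_ball.1 hder
      filter_upwards [ball_mem_nhds (0 : ℂ) hε] with s hs _
      have := isOpen_ball.is_const_of_deriv_eq_zero (convex_ball (0 : ℂ) ε).isPreconnected
        (fun t ht => (hb t ht).1.differentiableWithinAt) (fun t ht => (hb t ht).2) hs
        (mem_ball_self hε)
      rw [this, hγ0]
    · rw [eventually_nhdsWithin_iff] at h
      filter_upwards [h] with s hs h0
      by_cases hs0 : s = 0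
      · rw [hs0]
        exact congrArg G hγ0
      · exact absurd h0 (hs hs0)
  obtain ⟨ε, hε, hb⟩ := Metric.eventually_nhds_iff_ball.1 ((eventually_all.2 key).and h8)
  have h9 : ∀ᶠ x in 𝓝 (0 : ℂ × ℂ), ‖x.2‖ < ε ^ N := by
    have : ContinuousAt (fun x : ℂ × ℂ => ‖x.2‖) 0 := by fun_prop
    exact this.eventually_lt continuousAt_const (by simpa using pow_pos hε N)
  filter_upwards [h6, h9] with x a1 a2 a3
  obtain ⟨s, hs⟩ := IsAlgClosed.exists_pow_nat_eq x.2 hN
  have hsε : s ∈ ball (0 : ℂ) ε := by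
    rw [mem_ball_zero_iff]
    by_contra hcon
    rw [not_lt] at hcon
    have := pow_le_pow_left₀ hε.le hcon N
    rw [← norm_pow, hs] at this
    exact absurd a2 (not_lt.2 this)
  obtain ⟨b1, b2⟩ := hb s hsε
  rw [a3] at a1
  have a4 : (P x.2).eval x.1 = 0 := by rw [← a1]; simp
  rw [← hs, b2, eval_prod, Finset.prod_eq_zero_iff] at a4
  obtain ⟨i, -, hi⟩ := a4
  rw [eval_sub, eval_X, eval_C, sub_eq_zero] at hi
  have hx : x = (β i s, s ^ N) := Prod.ext hi hs.symm
  rw [hx]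
  exact b1 i (by rw [← hx]; exact a3)

end Vale.Agent.P281.H511.Surf
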