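import Vale.Agent.P281.H511.Surf.Main
import Vale.Agent.P281.H603.Surf.S2
import Vale.Agent.P281.H603.Surf.Triv

/-!
# P281, surfaces (helper511): Campana's inequality for compact complex surfaces, final form
-/

open Set Filter Metric Vale.Agent.P281 Vale.Agent.P281.H713 Vale.Agent.P281.H64
open scoped Topology ContDiff Manifold

noncomputable section

namespace Vale.Agent.P281.H511.Surf

/-- **Campana's inequality for all compact complex surfaces**: fibrations onto curves -/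
theorem final {X Y : Type}
    [TopologicalSpace X] [T2Space X] [CompactSpace X] [ConnectedSpace X] [ChartedSpace (Cm 2) X]
    [IsManifold 𝓘(ℂ, Cm 2) ω X] [TopologicalSpace Y] [T2Space Y] [ChartedSpace (Cm 1) Y]
    [IsManifold 𝓘(ℂ, Cm 1) ω Y] (f : X → Y) (hf : ContMDiff 𝓘(ℂ, Cm 2) 𝓘(ℂ, Cm 1) ω f)
    (hc : ∀ y, IsConnected (f ⁻¹' {y})) (Δ : Set X → ℝ) (hΔ : J.IsSNC (Cm 2) Δ) :
    ∃ T : Set Y, T.Finite ∧ ∀ (F : Type) [TopologicalSpace F] [CompactSpace F] [ConnectedSpace F]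
      [ChartedSpace (Cm 1) F] [IsManifold 𝓘(ℂ, Cm 1) ω F] (i : F → X),
      ContMDiff 𝓘(ℂ, Cm 1) 𝓘(ℂ, Cm 2) ω i →
      (∀ t, Function.Injective (mfderiv 𝓘(ℂ, Cm 1) 𝓘(ℂ, Cm 2) i t)) →
      (∃ y, y ∉ T ∧ ∀ t, f (i t) = y) →
      TZ.S.kodR (Cm 2) (Cm 1) i Δ +
        TZ.S.kap (Cm 2) (Cm 1) ⟨X, Y, inferInstance, inferInstance, inferInstance, inferInstance,
          f, Δ⟩ ≤ TZ.S.kodX (Cm 2) Δ :=
  main H603.Surf.s2 (E₀ := Cm 1) (by simp) f hf hc Δ hΔ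

section
variable {n : ℕ} {X Y : Type}

/-- the case `dim Y = dim X`: the fibres are points -/
theorem final_top
    [TopologicalSpace X] [T2Space X] [CompactSpace X] [ConnectedSpace X] [ChartedSpace (Cm n) X]
    [IsManifold 𝓘(ℂ, Cm n) ω X] [TopologicalSpace Y] [T2Space Y] [ChartedSpace (Cm n) Y]
    [IsManifold 𝓘(ℂ, Cm n) ω Y] (f : X → Y) (hf : ContMDiff 𝓘(ℂ, Cm n) 𝓘(ℂ, Cm n) ω f)
    (hc : ∀ y, IsConnected (f ⁻¹' {y})) (Δ : Set X → ℝ) (hΔ : J.IsSNC (Cm n) Δ)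
    {E₀ F : Type} [NormedAddCommGroup E₀] [NormedSpace ℂ E₀] [Subsingleton E₀]
    [TopologicalSpace F] [ChartedSpace E₀ F] (i : F → X) :
    TZ.S.kodR (Cm n) E₀ i Δ +
      TZ.S.kap (Cm n) (Cm n) ⟨X, Y, inferInstance, inferInstance, inferInstance, inferInstance,
        f, Δ⟩ ≤ TZ.S.kodX (Cm n) Δ := by
  refine (add_le_add (H603.Surf.kod_zero _ _) (H603.Surf.kap_le_of_dim_eq hf hc hΔ)).trans ?_
  rw [zero_add]

/-- the case `dim Y = 0`: the fibre is `X` -/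
theorem final_bot
    [TopologicalSpace X] [ChartedSpace (Cm n) X] [TopologicalSpace Y] [ChartedSpace (Cm 0) Y]
    (f : X → Y) (Δ : Set X → ℝ) :
    TZ.S.kodX (Cm n) Δ +
      TZ.S.kap (Cm n) (Cm 0) ⟨X, Y, inferInstance, inferInstance, inferInstance, inferInstance,
        f, Δ⟩ ≤ TZ.S.kodX (Cm n) Δ := by
  refine (add_le_add le_rfl (H603.Surf.kap_le_zero f Δ)).trans ?_
  rw [add_zero]

end

end Vale.Agent.P281.H511.Surf
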