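import Vale.Agent.P281.H511.Surf.Spec
import Vale.Agent.P267.H823.Comp
import Vale.Agent.P281.H511.Loc

/-!
# P281, surfaces (helper511): irreducible components of the fibres
-/

open Set Filter Metric Vale.Agent.P281 Vale.Agent.P281.H713 Vale.Agent.P281.H64
open scoped Topology ContDiff Manifold

noncomputable section

namespace Vale.Agent.P281.H511.Surf

open Vale.Agent.P267 (EffDiv)
open Vale.Agent.P267.H823 (IsComp Rg dat)
open Vale.Agent.P267.H815 (Assoc UnitN)

section
variable {X : Type} [TopologicalSpace X] [ChartedSpace (Cm 2) X] [IsManifold 𝓘(ℂ, Cm 2) ω X]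

theorem holN_iff_holAt {g : X → ℂ} {x : X} :
    Vale.Agent.P267.H815.HolN g x ↔ J.HolAt (Cm 2) g x := by
  have hx : x ∈ (chartAt (Cm 2) x).source := mem_chart_source _ x
  rw [Vale.Agent.P267.H815.holN_iff x hx]
  constructor
  · intro h
    exact HolV.of_rep hx h.contDiffAt
  · intro h
    exact (HolV.rep hx (h : HolV (Cm 2) g x)).analyticAt

/-- the local equations of a component -/
theorem isLocalEq_comp {D : EffDiv X} {c : Set X} (hc : IsComp D c) {C : EffDiv X}
    (hC : ∀ x, C.f x = (dat D x).fc c) (x : X) :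
    J.IsLocalEq (Cm 2) (closure c) (C.f x) x := by
  have hs := Vale.Agent.P267.H823.supp_eq_closure hc hC
  refine ⟨C.U x, C.isOpen x, C.mem x, fun z hz => holN_iff_holAt.1
    (Vale.Agent.P267.H815.holN_f C x hz), fun z hz => ?_, ?_⟩
  · rw [← hs]
    exact Vale.Agent.P267.H815.mem_supp_iff C hz
  · rintro y ⟨hy1, hy2⟩
    have h1 : y ∈ closure (c ∩ C.U x) := by
      rw [mem_closure_iff_nhds] at hy1 ⊢
      intro t ht
      obtain ⟨w, hw1, hw2⟩ := hy1 (t ∩ C.U x) (inter_mem ht ((C.isOpen x).mem_nhds hy2))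
      exact ⟨w, hw1.1, hw2, hw1.2⟩
    refine closure_mono ?_ h1
    rintro w ⟨hw1, hw2⟩
    refine ⟨subset_closure hw1, ?_⟩
    have h2 := (Vale.Agent.P267.H823.mem_smooth_iff (C := C)).1
      (Vale.Agent.P267.H823.subset_smooth hc hC hw1)
    have h3 : Assoc (C.f x) (C.f w) w := Vale.Agent.P267.H815.assoc_f C hw2 (C.mem w)
    exact (h3.differential (Vale.Agent.P267.H815.holN_f C w (C.mem w)) h2.1).2 h2.2

theorem isPrime_comp {D : EffDiv X} {c : Set X} (hc : IsComp D c) :
    J.IsPrime (Cm 2) (closure c) := by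
  obtain ⟨C, hC⟩ := Vale.Agent.P267.H823.exists_comp D c hc
  refine ⟨isClosed_closure, fun x => ⟨C.f x, isLocalEq_comp hc hC x⟩, ?_⟩
  have h1 : c ⊆ {x | x ∈ closure c ∧ ∃ g, J.IsLocalEq (Cm 2) (closure c) g x ∧
      J.dif (Cm 2) g x ≠ 0} := by
    intro x hx
    refine ⟨subset_closure hx, C.f x, isLocalEq_comp hc hC x, ?_⟩
    exact ((Vale.Agent.P267.H823.mem_smooth_iff (C := C)).1
      (Vale.Agent.P267.H823.subset_smooth hc hC hx)).2
  exact ⟨hc.nonempty.mono h1, hc.isPreconnected.subset_closure h1 fun x hx => hx.1⟩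

end

section
variable {X Y : Type} [TopologicalSpace X] [ChartedSpace (Cm 2) X] [IsManifold 𝓘(ℂ, Cm 2) ω X]
  [TopologicalSpace Y] [ChartedSpace (Cm 1) Y] [IsManifold 𝓘(ℂ, Cm 1) ω Y] {f : X → Y}

/-- an equation of the fibre over `y` -/
def fibEq (f : X → Y) (y : Y) (x : X) : ℂ := chartAt (Cm 1) y (f x) 0 - chartAt (Cm 1) y y 0

omit [TopologicalSpace X] [ChartedSpace (Cm 2) X] [IsManifold 𝓘(ℂ, Cm 2) ω X]
  [IsManifold 𝓘(ℂ, Cm 1) ω Y] in
theorem fibEq_zero_iff {y : Y} {x : X} (hx : f x ∈ (chartAt (Cm 1) y).source) :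
    fibEq f y x = 0 ↔ f x = y := by
  constructor
  · intro h
    refine (chartAt (Cm 1) y).injOn hx (mem_chart_source _ _) ?_
    funext i
    rw [Subsingleton.elim i 0]
    exact sub_eq_zero.1 h
  · rintro rfl
    exact sub_self _

theorem fibEq_hol (hf : ContMDiff 𝓘(ℂ, Cm 2) 𝓘(ℂ, Cm 1) ω f) {y : Y} {x : X}
    (hx : f x ∈ (chartAt (Cm 1) y).source) : J.HolAt (Cm 2) (fibEq f y) x := by
  have hat : chartAt (Cm 1) y ∈ atlas (Cm 1) Y := chart_mem_atlas _ _
  have h1 : HolV (Cm 2) (fun x => chartAt (Cm 1) y (f x)) x :=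
    HolV.comp (E' := Cm 1) (holV_chart hat hx) (hf x)
  exact HolV.comp_contDiff (G := fun v : Cm 1 => v 0 - chartAt (Cm 1) y y 0) (by fun_prop) h1

variable [T2Space Y] [ConnectedSpace X]

/-- the identity theorem -/
theorem nowhere_const (hf : ContMDiff 𝓘(ℂ, Cm 2) 𝓘(ℂ, Cm 1) ω f) {y : Y} {z : X}
    (hz : ¬ ∀ᶠ x in 𝓝 z, f x = y) (x : X) : ¬ ∀ᶠ x' in 𝓝 x, f x' = y := by
  set W : Set X := {x | ∀ᶠ x' in 𝓝 x, f x' = y} with hW
  have ho : IsOpen W := isOpen_iff_mem_nhds.2 fun x hx => eventually_eventually_nhds.2 hx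
  have hc : IsClosed W := by
    refine isClosed_of_closure_subset fun x hx => ?_
    have hfx : f x = y := by
      have h1 : IsClosed (f ⁻¹' {y}) := isClosed_singleton.preimage hf.continuous
      exact closure_minimal (fun x' (hx' : ∀ᶠ x'' in 𝓝 x', f x'' = y) => hx'.self_of_nhds) h1 hx
    set φ := chartAt (Cm 2) x with hφ
    have hxs : x ∈ φ.source := mem_chart_source _ _
    have h1 : ∀ᶠ w in 𝓝 (φ x), w ∈ φ.target ∧ f (φ.symm w) ∈ (chartAt (Cm 1) y).source := by
      refine Filter.Eventually.and (φ.open_target.mem_nhds (φ.map_source hxs)) ?_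
      have h2 : Tendsto φ.symm (𝓝 (φ x)) (𝓝 x) := by
        have := (φ.continuousAt_symm (φ.map_source hxs)).tendsto
        rwa [φ.left_inv hxs] at this
      refine (hf.continuous.continuousAt.tendsto.comp h2).eventually
        ((chartAt (Cm 1) y).open_source.mem_nhds ?_)
      rw [hfx]
      exact mem_chart_source _ _
    obtain ⟨r, hr, hb⟩ := Metric.eventually_nhds_iff_ball.1 h1
    have hana : AnalyticOnNhd ℂ (fibEq f y ∘ φ.symm) (ball (φ x) r) := by
      intro w hw
      have h3 : φ.symm w ∈ φ.source := φ.map_target (hb w hw).1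
      have h4 := HolV.rep (x₀ := x) h3 (fibEq_hol hf (hb w hw).2 : HolV (Cm 2) _ _)
      have h5 : φ (φ.symm w) = w := φ.right_inv (hb w hw).1
      have h6 := h4.analyticAt
      rwa [← hφ, h5] at h6
    have hnb : φ.source ∩ φ ⁻¹' ball (φ x) r ∈ 𝓝 x :=
      inter_mem (φ.open_source.mem_nhds hxs) ((φ.continuousAt hxs) (ball_mem_nhds _ hr))
    obtain ⟨x₁, ⟨hx₁s, hx₁b⟩, hx₁⟩ := mem_closure_iff_nhds.1 hx _ hnb
    have h7 : fibEq f y ∘ φ.symm =ᶠ[𝓝 (φ x₁)] 0 := by
      have h2 : Tendsto φ.symm (𝓝 (φ x₁)) (𝓝 x₁) := by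
        have := (φ.continuousAt_symm (φ.map_source hx₁s)).tendsto
        rwa [φ.left_inv hx₁s] at this
      filter_upwards [h2.eventually (show ∀ᶠ x'' in 𝓝 x₁, f x'' = y from hx₁)] with w hw
      show fibEq f y (φ.symm w) = 0
      rw [fibEq_zero_iff]
      · exact hw
      · rw [hw]
        exact mem_chart_source _ _
    have h8 := hana.eqOn_zero_of_preconnected_of_eventuallyEq_zero
      (convex_ball _ _).isPreconnected hx₁b h7
    show ∀ᶠ x' in 𝓝 x, f x' = y
    filter_upwards [hnb] with x' hx'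
    have h9 := h8 hx'.2
    have h10 : φ.symm (φ x') = x' := φ.left_inv hx'.1
    rw [Function.comp_apply, h10] at h9
    refine (fibEq_zero_iff ?_).1 h9
    have h11 := (hb _ hx'.2).2
    rwa [h10] at h11
  intro hx
  have h1 : W = univ := IsClopen.eq_univ ⟨hc, ho⟩ ⟨x, hx⟩
  exact hz (h1 ▸ mem_univ z : z ∈ W)

open Classical in
/-- the divisor of a fibre -/
theorem exists_fibDiv (hf : ContMDiff 𝓘(ℂ, Cm 2) 𝓘(ℂ, Cm 1) ω f) {y : Y} {z : X}
    (hz : ¬ ∀ᶠ x in 𝓝 z, f x = y) : ∃ D : EffDiv X, D.supp = f ⁻¹' {y} := by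
  have hcl : IsClosed (f ⁻¹' {y}) := isClosed_singleton.preimage hf.continuous
  have hsrc : ∀ x, f x = y → ∀ᶠ x' in 𝓝 x, f x' ∈ (chartAt (Cm 1) y).source := by
    intro x hx
    refine hf.continuous.continuousAt.eventually ((chartAt (Cm 1) y).open_source.mem_nhds ?_)
    rw [hx]
    exact mem_chart_source _ _
  obtain ⟨D, hD⟩ := Vale.Agent.P267.H815.exists_effDiv (X := X)
    (fun x => if f x = y then fibEq f y else fun _ => 1) (fun x => by
      by_cases hx : f x = y
      · simp only [hx, if_true]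
        exact holN_iff_holAt.2 (fibEq_hol hf (hsrc x hx).self_of_nhds)
      · simp only [hx, if_false]
        exact Vale.Agent.P267.H815.holN_const 1 x) (fun x => by
      by_cases hx : f x = y
      · simp only [hx, if_true]
        intro hcon
        refine nowhere_const hf hz x ?_
        filter_upwards [hcon, hsrc x hx] with x' h1 h2
        exact (fibEq_zero_iff h2).1 (not_not.1 h1)
      · simp only [hx, if_false]
        exact Eventually.frequently (Eventually.of_forall fun _ => one_ne_zero)) (fun x => by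
      by_cases hx : f x = y
      · filter_upwards [hsrc x hx] with x' h2
        by_cases hx' : f x' = y
        · simp only [hx, hx', if_true]
          exact Assoc.refl _ _
        · simp only [hx, hx', if_true, if_false]
          refine ⟨fibEq f y, ⟨holN_iff_holAt.2 (fibEq_hol hf h2), ?_⟩,
            Eventually.of_forall fun z => (mul_one _).symm⟩
          rw [Ne, fibEq_zero_iff h2]
          exact hx'
      · filter_upwards [hcl.isOpen_compl.mem_nhds hx] with x' hx'
        have hx'' : ¬ f x' = y := hx'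
        simp only [hx, hx'', if_false]
        exact Assoc.refl _ _)
  refine ⟨D, ?_⟩
  ext x
  show D.f x x = 0 ↔ f x = y
  rw [hD]
  by_cases hx : f x = y
  · simp only [hx, if_true, iff_true]
    exact (fibEq_zero_iff (hsrc x hx).self_of_nhds).2 hx
  · simp [hx]

end

theorem irr : IrrStmt := by
  intro X Y _ _ _ _ _ _ _ _ _ _ f hf z e he he0 hde hA
  have hnc : ¬ ∀ᶠ x in 𝓝 z, f x = f z := by
    intro hcon
    refine Vale.Agent.P267.H823.frequently_ne_of_mfderiv (E := Cm 2) (l := e) (p := z) hde ?_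
    filter_upwards [hcon, hA] with x h1 h2
    exact not_not.2 (h2.1 h1)
  obtain ⟨D, hD⟩ := exists_fibDiv hf hnc
  have hDA : ∀ x, x ∈ D.supp ↔ f x = f z := fun x => by rw [hD]; rfl
  set d := dat D z with hd
  have hreg : Vale.Agent.P267.H823.RegAt (Cm 2) e z e 1 (fun _ => 1) :=
    ⟨holN_iff_holAt.2 he, he0, hde, one_pos, Vale.Agent.P267.H815.holN_const 1 z, one_ne_zero,
      Eventually.of_forall fun x => by rw [pow_one, one_mul]⟩
  obtain ⟨ι, Fι, q, m, u, ⟨j⟩, L, hL⟩ := hreg.exists_locFact' Vale.Agent.P267.H823.finrank_Cm2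
  have huq : ∀ᶠ x in 𝓝 z, e x = 0 ↔ q j x = 0 := by
    filter_upwards [L.eq, L.holu.continuousAt.eventually_ne L.ne] with x h1 h2
    have huniv : (Finset.univ : Finset ι) = {j} := by
      ext i
      simp [(hL j).2 i]
    rw [h1, huniv, Finset.prod_singleton, mul_eq_zero, pow_eq_zero_iff (L.mpos j).ne']
    exact ⟨fun h => h.resolve_left h2, Or.inr⟩
  obtain ⟨V, hVn, hVo, hVW, hVc⟩ := L.conn _ ((hA.and huq).and (d.isOpen.mem_nhds d.mem))
  have hV1 : ∀ x ∈ V, f x = f z ↔ q j x = 0 := fun x hx =>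
    (hVW hx).1.1.trans (hVW hx).1.2
  set P : Set X := {x | x ∈ V ∧ q j x = 0} \ {z} with hP
  have hPR : P ⊆ Rg D := by
    rintro x ⟨⟨hx1, hx2⟩, hx3⟩
    have h1 : x ∈ D.supp := (hDA x).2 ((hV1 x hx1).2 hx2)
    obtain ⟨i, hi⟩ := (d.supp_iff (hVW hx1).2).1 h1
    exact d.mem_Rg (hVW hx1).2 (Or.inl hx3) hi
  have hPc : IsConnected P := hVc j
  obtain ⟨y₁, hy₁⟩ := hPc.nonempty
  set c := connectedComponentIn (Rg D) y₁ with hc
  have hcc : IsComp D c := ⟨y₁, hPR hy₁, rfl⟩
  have hPc' : P ⊆ c := hPc.isPreconnected.subset_connectedComponentIn hy₁ hPR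
  have hzc : z ∈ closure c := by
    refine closure_mono hPc' ?_
    rw [mem_closure_iff_nhds]
    intro W hW
    obtain ⟨V', hV'n, -, hV'W, hV'c⟩ := L.conn _ (inter_mem hW hVn)
    obtain ⟨x, ⟨hx1, hx2⟩, hx3⟩ := (hV'c j).nonempty
    exact ⟨x, (hV'W hx1).1, ⟨(hV'W hx1).2, hx2⟩, hx3⟩
  have hcA : closure c ⊆ f ⁻¹' {f z} := by
    refine closure_minimal ?_ (isClosed_singleton.preimage hf.continuous)
    rw [← hD]
    exact hcc.subset.trans (Vale.Agent.P267.H823.Rg_subset_supp D)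
  refine ⟨closure c, isPrime_comp hcc, hcA, IsLocalEq.of_dif_ne he ?_ hde⟩
  filter_upwards [hVn] with x hx
  rw [← (hVW hx).1.1]
  constructor
  · exact fun h => hcA h
  · intro h
    by_cases hxz : x = z
    · rw [hxz]
      exact hzc
    · exact subset_closure (hPc' ⟨⟨hx, (hV1 x hx).1 h⟩, hxz⟩)

end Vale.Agent.P281.H511.Surf
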