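import Vale.Agent.P281.H511.Surf.Spec
import Vale.Agent.P281.H511.Surf.Crit
import Vale.Agent.P281.H511.Loc

/-!
# P281, surfaces (helper511): block S3, the critical values are finite
-/

open Set Filter Metric Vale.Agent.P281 Vale.Agent.P281.H713 Vale.Agent.P281.H64
open scoped Topology ContDiff Manifold

noncomputable section

namespace Vale.Agent.P281.H511.Surf

/-- a direction in which `h` does not vanish identically -/
theorem exists_dir {E : Type*} [NormedAddCommGroup E] [NormedSpace ℂ E] [Nontrivial E]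
    {h : E → ℂ} {p : E}
    (hh : AnalyticAt ℂ h p) (hne : ¬ ∀ᶠ x in 𝓝 p, h x = 0) :
    ∃ w : E, w ≠ 0 ∧ ¬ ∀ᶠ s : ℂ in 𝓝 0, h (p + s • w) = 0 := by
  by_contra hcon
  push Not at hcon
  apply hne
  obtain ⟨r, hr, hb⟩ := Metric.eventually_nhds_iff_ball.1 hh.eventually_analyticAt
  filter_upwards [ball_mem_nhds p hr] with x hx
  by_cases hx0 : x - p = 0
  · have h1 : x = p := sub_eq_zero.1 hx0
    subst h1
    obtain ⟨w, hw⟩ := exists_ne (0 : E)
    have := (hcon w hw).self_of_nhds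
    simpa using this
  · have hw := hcon (x - p) hx0
    have hpos : 0 < ‖x - p‖ := norm_pos_iff.2 hx0
    have h1 : ‖x - p‖ < r := by rwa [mem_ball_iff_norm] at hx
    set R : ℝ := r / ‖x - p‖ with hR
    have hR1 : 1 < R := (one_lt_div hpos).2 h1
    have h2 : AnalyticOnNhd ℂ (fun s : ℂ => h (p + s • (x - p))) (ball 0 R) := by
      intro s hs
      have h3 : p + s • (x - p) ∈ ball p r := by
        rw [mem_ball_iff_norm, add_sub_cancel_left, norm_smul]
        rw [mem_ball_zero_iff, hR, lt_div_iff₀ hpos] at hs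
        exact hs
      exact AnalyticAt.fun_comp (f := fun s : ℂ => p + s • (x - p)) (hb _ h3) (by fun_prop)
    have h4 := h2.eqOn_zero_of_preconnected_of_eventuallyEq_zero
      (convex_ball (0 : ℂ) R).isPreconnected (mem_ball_self (by linarith)) hw
    have h5 := h4 (show (1 : ℂ) ∈ ball (0 : ℂ) R by simpa using hR1)
    simpa using h5

/-- a basis with given first vector -/
theorem exists_equiv {w : Cm 2} (hw : w ≠ 0) : ∃ L : (ℂ × ℂ) ≃L[ℂ] Cm 2, L (1, 0) = w := by
  obtain ⟨w', hw'⟩ : ∃ w' : Cm 2, ∀ a b : ℂ, a • w + b • w' = 0 → a = 0 ∧ b = 0 := by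
    by_cases h0 : w 0 = 0
    · have h1 : w 1 ≠ 0 := by
        intro h1
        apply hw
        funext i
        fin_cases i
        · exact h0
        · exact h1
      refine ⟨![1, 0], fun a b h => ?_⟩
      have e0 := congrFun h 0
      have e1 := congrFun h 1
      simp [h0] at e0 e1
      exact ⟨e1.resolve_right h1, e0⟩
    · refine ⟨![0, 1], fun a b h => ?_⟩
      have e0 := congrFun h 0
      have e1 := congrFun h 1
      simp at e0 e1
      have ea := e0.resolve_right h0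
      rw [ea, zero_mul, zero_add] at e1
      exact ⟨ea, e1⟩
  let φ : (ℂ × ℂ) →ₗ[ℂ] Cm 2 :=
    { toFun := fun v => v.1 • w + v.2 • w'
      map_add' := by intro x y; simp only [Prod.fst_add, Prod.snd_add, add_smul]; abel
      map_smul' := by
        intro c x
        simp only [Prod.smul_fst, Prod.smul_snd, smul_add, smul_smul, RingHom.id_apply,
          smul_eq_mul] }
  have hφ : Function.Injective φ := by
    rw [injective_iff_map_eq_zero]
    rintro ⟨a, b⟩ h
    obtain ⟨h1, h2⟩ := hw' a b h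
    rw [h1, h2]
    rfl
  refine ⟨(LinearMap.linearEquivOfInjective φ hφ (by simp)).toContinuousLinearEquiv, ?_⟩
  show φ (1, 0) = w
  show (1 : ℂ) • w + (0 : ℂ) • w' = w
  simp

theorem crit1 {g : Cm 2 → ℂ} {p : Cm 2} (hg : AnalyticAt ℂ g p) :
    ∀ᶠ x in 𝓝 p, fderiv ℂ g x = 0 → g x = g p := by
  have hD : AnalyticAt ℂ (fderiv ℂ g) p := hg.fderiv
  by_cases hv : ∀ v : Cm 2, ∀ᶠ x in 𝓝 p, fderiv ℂ g x v = 0
  · -- the derivative vanishes
    have h1 : ∀ᶠ x in 𝓝 p, fderiv ℂ g x = 0 := by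
      filter_upwards [hv ![1, 0], hv ![0, 1]] with x a1 a2
      refine ContinuousLinearMap.ext fun v => ?_
      have h2 : v = v 0 • ![1, 0] + v 1 • ![0, 1] := by
        funext i
        fin_cases i <;> simp
      rw [h2, map_add, map_smul, map_smul, a1, a2]
      simp
    obtain ⟨ε, hε, hb⟩ := Metric.eventually_nhds_iff_ball.1 (h1.and hg.eventually_analyticAt)
    filter_upwards [ball_mem_nhds p hε] with x hx _
    exact isOpen_ball.is_const_of_fderiv_eq_zero (convex_ball p ε).isPreconnected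
      (fun t ht => (hb t ht).2.differentiableAt.differentiableWithinAt)
      (fun t ht => (hb t ht).1) hx (mem_ball_self hε)
  · obtain ⟨v, hv⟩ := not_forall.1 hv
    have hF : AnalyticAt ℂ (fun z => fderiv ℂ g z v) p :=
      ((ContinuousLinearMap.apply ℂ ℂ v).analyticAt _).comp hD
    obtain ⟨w, hw, hne⟩ := exists_dir hF hv
    obtain ⟨L, hL⟩ := exists_equiv hw
    have hφ : AnalyticAt ℂ (fun s : ℂ => fderiv ℂ g (p + s • w) v) 0 :=
      AnalyticAt.comp_of_eq (f := fun s : ℂ => p + s • w) hF (by fun_prop) (by simp)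
    obtain ⟨b, u, hu, hu0, hreg⟩ := hφ.exists_eventuallyEq_pow_smul_nonzero_iff.2 hne
    set G : ℂ × ℂ → ℂ := fun z => g (p + L z) with hG
    have hLp : AnalyticAt ℂ (fun z : ℂ × ℂ => p + L z) 0 := by
      have := (L : (ℂ × ℂ) →L[ℂ] Cm 2).analyticAt 0
      exact analyticAt_const.add this
    have hGa : AnalyticAt ℂ G 0 := AnalyticAt.comp_of_eq hg hLp (by simp)
    have hdG : ∀ᶠ z in 𝓝 (0 : ℂ × ℂ), fderiv ℂ G z =
        (fderiv ℂ g (p + L z)).comp (L : (ℂ × ℂ) →L[ℂ] Cm 2) := by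
      have h1 : ∀ᶠ x in 𝓝 (p + L 0), DifferentiableAt ℂ g x := by
        rw [map_zero, add_zero]
        exact hg.eventually_analyticAt.mono fun x hx => hx.differentiableAt
      filter_upwards [hLp.continuousAt.eventually h1] with z hz
      have h2 : HasFDerivAt (fun z : ℂ × ℂ => p + L z) (L : (ℂ × ℂ) →L[ℂ] Cm 2) z :=
        (L : (ℂ × ℂ) →L[ℂ] Cm 2).hasFDerivAt.const_add p
      exact (hz.hasFDerivAt.comp z h2).fderiv
    have h3 := crit0 hGa hu hu0 (v := L.symm v) (b := b) (by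
      have h4 : Tendsto (fun s : ℂ => ((s, 0) : ℂ × ℂ)) (𝓝 0) (𝓝 0) := by
        have : Continuous (fun s : ℂ => ((s, 0) : ℂ × ℂ)) := by fun_prop
        exact this.tendsto' _ _ rfl
      filter_upwards [hreg, h4.eventually hdG] with s a1 a2
      rw [a2]
      show fderiv ℂ g (p + L (s, 0)) (L (L.symm v)) = s ^ b * u s
      have h5 : ((s, 0) : ℂ × ℂ) = s • (1, 0) := by simp
      rw [L.apply_symm_apply, h5, map_smul, hL, a1, sub_zero, smul_eq_mul])
    have h6 : Tendsto (fun x : Cm 2 => L.symm (x - p)) (𝓝 p) (𝓝 0) := by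
      have : Continuous (fun x : Cm 2 => L.symm (x - p)) := by fun_prop
      exact this.tendsto' _ _ (by simp)
    filter_upwards [h6.eventually h3, h6.eventually hdG] with x a1 a2 a3
    have h7 : p + L (L.symm (x - p)) = x := by rw [L.apply_symm_apply]; abel
    rw [h7] at a2
    have h8 := a1 (by rw [a2, a3]; rfl)
    have h9 : G (L.symm (x - p)) = g x := by rw [hG]; simp only [h7]
    have h10 : G 0 = g p := by rw [hG]; simp
    rw [h9, h10] at h8
    exact h8

section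
variable {X Y : Type} [TopologicalSpace X] [ChartedSpace (Cm 2) X] [IsManifold 𝓘(ℂ, Cm 2) ω X]
  [TopologicalSpace Y] [ChartedSpace (Cm 1) Y] [IsManifold 𝓘(ℂ, Cm 1) ω Y]

theorem crit2 {ψ : X → ℂ} {x : X} (hψ : HolV (Cm 2) ψ x) :
    ∀ᶠ x' in 𝓝 x, dV (Cm 2) ψ x' = 0 → ψ x' = ψ x := by
  have hx : x ∈ (chartAt (Cm 2) x).source := mem_chart_source _ x
  have h1 : AnalyticAt ℂ (ψ ∘ (chartAt (Cm 2) x).symm) (chartAt (Cm 2) x x) :=
    (hψ.rep hx).analyticAt
  filter_upwards [((chartAt (Cm 2) x).continuousAt hx).eventually (crit1 h1),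
    (chartAt (Cm 2) x).open_source.mem_nhds hx, hψ.eventually] with x' a1 a2 a3 a4
  have h2 := dV_eq_chart (E := Cm 2) a2 a3
  have hdet : (dV (Cm 2) (chartAt (Cm 2) x : X → Cm 2) x').det ≠ 0 := jac_chart_ne_zero a2
  have hsurj : Function.Surjective (dV (Cm 2) (chartAt (Cm 2) x : X → Cm 2) x') := fun w =>
    ⟨(LinearMap.equivOfDetNeZero
      ((dV (Cm 2) (chartAt (Cm 2) x : X → Cm 2) x' : Cm 2 →L[ℂ] Cm 2) : Cm 2 →ₗ[ℂ] Cm 2)
        hdet).symm w,
      (LinearMap.equivOfDetNeZero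
      ((dV (Cm 2) (chartAt (Cm 2) x : X → Cm 2) x' : Cm 2 →L[ℂ] Cm 2) : Cm 2 →ₗ[ℂ] Cm 2)
        hdet).apply_symm_apply w⟩
  have h3 := a1 (by
    refine ContinuousLinearMap.ext fun w => ?_
    obtain ⟨ξ, rfl⟩ := hsurj w
    rw [a4] at h2
    exact (congrArg (fun A : Cm 2 →L[ℂ] ℂ => A ξ) h2).symm)
  simp only [Function.comp_apply, (chartAt (Cm 2) x).left_inv a2,
    (chartAt (Cm 2) x).left_inv hx] at h3
  exact h3

theorem crit3 {f : X → Y} (hf : ContMDiff 𝓘(ℂ, Cm 2) 𝓘(ℂ, Cm 1) ω f) (x : X) :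
    ∀ᶠ x' in 𝓝 x, dM (Cm 2) (Cm 1) f x' = 0 → f x' = f x := by
  set χ := chartAt (Cm 1) (f x) with hχ
  have hs : f x ∈ χ.source := mem_chart_source _ _
  have hat : χ ∈ atlas (Cm 1) Y := chart_mem_atlas _ _
  have h1 : ∀ x', f x' ∈ χ.source → HolV (Cm 2) (fun x => χ (f x)) x' := fun x' hx' =>
    HolV.comp (E' := Cm 1) (holV_chart hat hx') (hf x')
  have h2 : ∀ x', f x' ∈ χ.source → HolV (Cm 2) (fun x => χ (f x) 0) x' := fun x' hx' =>
    HolV.comp_contDiff (G := fun v : Cm 1 => v 0) (by fun_prop) (h1 x' hx')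
  filter_upwards [crit2 (h2 x hs), (hf.continuous.continuousAt).eventually
    (χ.open_source.mem_nhds hs)] with x' a1 a2 a3
  have h3 : dV (Cm 2) (fun x => χ (f x) 0) x' = 0 := by
    rw [dV_comp_contDiff (G := fun v : Cm 1 => v 0) (by fun_prop) (h1 x' a2),
      dV_comp (E' := Cm 1) (holV_chart hat a2) (hf x'), a3]
    simp
  have h4 := a1 h3
  have h5 : χ (f x') = χ (f x) := by
    funext i
    rw [Subsingleton.elim i 0]
    exact h4
  exact χ.injOn a2 hs h5

end

/-- **S3** -/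
theorem s3 : S3Stmt := by
  intro X Y _ _ _ _ _ _ _ _ _ f hf hconn
  choose U hU hUo hxU using fun x : X => eventually_nhds_iff.1 (crit3 hf x)
  obtain ⟨t, ht⟩ := isCompact_univ.elim_finite_subcover U hUo
    (fun x _ => mem_iUnion.2 ⟨x, hxU x⟩)
  refine ⟨f '' t, t.finite_toSet.image f, fun S hTS hS => ⟨hS, fun K hK hKS => ?_, ?_, ?_⟩⟩
  · exact (hK.isClosed.preimage hf.continuous).isCompact
  · intro x hx
    have h0 : dM (Cm 2) (Cm 1) f x ≠ 0 := by
      intro h0
      obtain ⟨x₁, hx₁, hx₁'⟩ := mem_iUnion₂.1 (ht (mem_univ x))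
      exact hx (hTS ⟨x₁, hx₁, (hU x₁ x hx₁' h0).symm⟩)
    obtain ⟨ξ, hξ⟩ : ∃ ξ, dM (Cm 2) (Cm 1) f x ξ ≠ 0 := by
      by_contra hcon
      push Not at hcon
      exact h0 (ContinuousLinearMap.ext hcon)
    have hξ0 : dM (Cm 2) (Cm 1) f x ξ 0 ≠ 0 := by
      intro h1
      apply hξ
      funext i
      rw [Subsingleton.elim i 0]
      exact h1
    intro w
    refine ⟨(w 0 / dM (Cm 2) (Cm 1) f x ξ 0) • ξ, ?_⟩
    show dM (Cm 2) (Cm 1) f x ((w 0 / dM (Cm 2) (Cm 1) f x ξ 0) • ξ) = w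
    rw [map_smul]
    funext i
    rw [Subsingleton.elim i 0]
    show w 0 / dM (Cm 2) (Cm 1) f x ξ 0 * dM (Cm 2) (Cm 1) f x ξ 0 = w 0
    rw [div_mul_cancel₀ _ hξ0]
  · exact fun y _ => hconn y

end Vale.Agent.P281.H511.Surf
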