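import Vale.Agent.P281.H511.TD
import Vale.Agent.P281.H511.Surf.Irr
import Vale.Agent.P281.H511.Surf.S3
import Vale.Agent.P281.H511.Surf.Pt
import Vale.Agent.P281.H964.S4
import Vale.Agent.P281.H713.TZ.SFinD
import Vale.Agent.P281.H150.CO

/-!
# P281, surfaces (helper511): Campana's inequality for compact complex surfaces
-/

open Set Filter Metric Vale.Agent.P281 Vale.Agent.P281.H713 Vale.Agent.P281.H64
open scoped Topology ContDiff Manifold

noncomputable section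

namespace Vale.Agent.P281.H511.Surf

section
variable {X : Type} [TopologicalSpace X] [ChartedSpace (Cm 2) X]

theorem isBigOpen_id [IsManifold 𝓘(ℂ, Cm 2) ω X] : J.IsBigOpen (Cm 2) (id : X → X) := by
  refine ⟨contMDiff_id, Topology.IsOpenEmbedding.id, fun z => ?_, fun x => ?_⟩
  · rw [mfderiv_id]
    exact Function.injective_id
  · refine ⟨fun _ => 1, contMDiffAt_const, fun h => ?_, Eventually.of_forall fun z => ⟨fun h => ?_,
      fun h => absurd h one_ne_zero⟩⟩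
    · exact one_ne_zero h.self_of_nhds
    · exact absurd (mem_range_self z) h

omit [ChartedSpace (Cm 2) X] in
theorem isRestriction_id (Δ : Set X → ℝ) : J.IsRestriction (id : X → X) Δ Δ :=
  ⟨fun D _ => rfl, fun D' h => ⟨D', h, rfl⟩⟩

end

/-- Campana's inequality on a surface -/
theorem main (h2 : S2Stmt) {E₀ X Y : Type} [NormedAddCommGroup E₀] [NormedSpace ℂ E₀]
    [FiniteDimensional ℂ E₀] (hE₀ : Module.finrank ℂ E₀ = 1)
    [TopologicalSpace X] [T2Space X] [CompactSpace X] [ConnectedSpace X] [ChartedSpace (Cm 2) X]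
    [IsManifold 𝓘(ℂ, Cm 2) ω X] [TopologicalSpace Y] [T2Space Y] [ChartedSpace (Cm 1) Y]
    [IsManifold 𝓘(ℂ, Cm 1) ω Y] (f : X → Y) (hf : ContMDiff 𝓘(ℂ, Cm 2) 𝓘(ℂ, Cm 1) ω f)
    (hc : ∀ y, IsConnected (f ⁻¹' {y})) (Δ : Set X → ℝ) (hΔ : J.IsSNC (Cm 2) Δ) :
    ∃ T : Set Y, T.Finite ∧ ∀ (F : Type) [TopologicalSpace F] [CompactSpace F] [ConnectedSpace F]
      [ChartedSpace E₀ F] [IsManifold 𝓘(ℂ, E₀) ω F] (i : F → X),
      ContMDiff 𝓘(ℂ, E₀) 𝓘(ℂ, Cm 2) ω i →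
      (∀ t, Function.Injective (mfderiv 𝓘(ℂ, E₀) 𝓘(ℂ, Cm 2) i t)) →
      (∃ y, y ∉ T ∧ ∀ t, f (i t) = y) →
      TZ.S.kodR (Cm 2) E₀ i Δ +
        TZ.S.kap (Cm 2) (Cm 1) ⟨X, Y, inferInstance, inferInstance, inferInstance, inferInstance,
          f, Δ⟩ ≤ TZ.S.kodX (Cm 2) Δ := by
  obtain ⟨T₂, hT₂, hE⟩ := h2 X Y f Δ hf hΔ
  obtain ⟨T₃, hT₃, hP⟩ := s3 X Y f hf hc
  set T : Set Y := T₂ ∪ T₃ with hT
  have hTf : T.Finite := hT₂.union hT₃
  have hfib : IsProperFibration (n := 2) (p := 1) f T := hP T subset_union_right hTf.isClosed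
  have het : IsEtale (n := 2) (p := 1) f T Δ := hE T subset_union_left
  set 𝒢 : Set (Set Y) := (fun y => {y}) '' T with h𝒢
  have hU : ⋃₀ 𝒢 = T := by
    ext y
    constructor
    · rintro ⟨_, ⟨y', hy', rfl⟩, hy⟩
      rw [mem_singleton_iff.1 hy]
      exact hy'
    · intro hy
      exact ⟨{y}, ⟨y, hy, rfl⟩, rfl⟩
  have hset : TZ.S.Setup (Cm 2) (Cm 1) (id : X → X) f 𝒢 Δ Δ := by
    refine ⟨inferInstance, inferInstance, inferInstance, isBigOpen_id, hf, hTf.image _, ?_, hΔ, hΔ,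
      isRestriction_id Δ⟩
    rintro _ ⟨y, -, rfl⟩
    exact isPrime_pt y
  have hpre : IsPreconnected Tᶜ := by
    have := H150.co 2 1 X X Y id f 𝒢 Δ Δ hset (by rw [hU]; exact hfib)
    rwa [hU] at this
  have hfam : IsFamilyOfCurves (Cm 2) (Cm 1) f T Δ :=
    td 1 X Y f T Δ hf hfib hpre hΔ.1 (fun D hD => (hΔ.2.1 D hD).1) het
  refine ⟨T, hTf, ?_⟩
  intro F _ _ _ _ _ i hi hinj hy
  have hin : TZ.S.InFibre (Cm 2) E₀ f 𝒢 i := ⟨inferInstance, hi, hinj, by rw [hU]; exact hy⟩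
  have hone := TZ.S.one' (n := 2) (p := 1) rfl hE₀ hset (by rw [hU]; exact hfam) hin
  refine le_trans ?_ hone.1
  obtain ⟨g1, g2, g3, g4, g5⟩ := H964.s4 irr s3 X Y f Δ hf hc hΔ _ rfl
  have hk := (hone.2.kapLe _ g1 g2 g3 g4 g5).2
    ⟨X, Y, inferInstance, inferInstance, inferInstance, inferInstance, f, Δ⟩ X inferInstance
    inferInstance f Δ (Relation.EqvGen.refl _) rfl
  exact add_le_add le_rfl hk

end Vale.Agent.P281.H511.Surf
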