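import Vale.Agent.P281.H64.SpecG
import Vale.Agent.P281.H713.TZ.S3

/-!
# P281, Q1 for surfaces (helper511): statements of the blocks
-/

open Set Filter Metric Vale.Agent.P281 Vale.Agent.P281.H713 Vale.Agent.P281.H64
open scoped Topology ContDiff Manifold

noncomputable section

namespace Vale.Agent.P281.H511.Surf

/-- **S1 + S3**: off a finite set, a fibration of a compact surface onto a curve is a proper
submersion with connected fibres. -/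
def S3Stmt : Prop :=
  ∀ (X Y : Type) [TopologicalSpace X] [T2Space X] [CompactSpace X] [ChartedSpace (Cm 2) X]
    [IsManifold 𝓘(ℂ, Cm 2) ω X] [TopologicalSpace Y] [T2Space Y] [ChartedSpace (Cm 1) Y]
    [IsManifold 𝓘(ℂ, Cm 1) ω Y] (f : X → Y), ContMDiff 𝓘(ℂ, Cm 2) 𝓘(ℂ, Cm 1) ω f →
    (∀ y, IsConnected (f ⁻¹' {y})) →
    ∃ T : Set Y, T.Finite ∧ ∀ S, T ⊆ S → IsClosed S → IsProperFibration (n := 2) (p := 1) f S

/-- **S2**: off a finite set, the horizontal part of an SNC boundary is étale. -/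
def S2Stmt : Prop :=
  ∀ (X Y : Type) [TopologicalSpace X] [T2Space X] [CompactSpace X] [ChartedSpace (Cm 2) X]
    [IsManifold 𝓘(ℂ, Cm 2) ω X] [TopologicalSpace Y] [T2Space Y] [ChartedSpace (Cm 1) Y]
    [IsManifold 𝓘(ℂ, Cm 1) ω Y] (f : X → Y) (Δ : Set X → ℝ),
    ContMDiff 𝓘(ℂ, Cm 2) 𝓘(ℂ, Cm 1) ω f → J.IsSNC (Cm 2) Δ →
    ∃ T : Set Y, T.Finite ∧ ∀ S, T ⊆ S → IsEtale (n := 2) (p := 1) f S Δ

/-- **Irr** (local structure by Puiseux, `P267/H823/{Weier,Puiseux,Factor}`): the irreducible component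
through `z` of the fibre of `f` through `z`, if this fibre is a smooth curve `e = 0` near `z`: it is a
prime divisor. -/
def IrrStmt : Prop :=
  ∀ (X Y : Type) [TopologicalSpace X] [T2Space X] [CompactSpace X] [ConnectedSpace X]
    [ChartedSpace (Cm 2) X] [IsManifold 𝓘(ℂ, Cm 2) ω X] [TopologicalSpace Y] [T2Space Y]
    [ChartedSpace (Cm 1) Y] [IsManifold 𝓘(ℂ, Cm 1) ω Y] (f : X → Y),
    ContMDiff 𝓘(ℂ, Cm 2) 𝓘(ℂ, Cm 1) ω f → ∀ (z : X) (e : X → ℂ), J.HolAt (Cm 2) e z → e z = 0 →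
    J.dif (Cm 2) e z ≠ 0 → (∀ᶠ x in 𝓝 z, f x = f z ↔ e x = 0) →
    ∃ D : Set X, J.IsPrime (Cm 2) D ∧ D ⊆ f ⁻¹' {f z} ∧ J.IsLocalEq (Cm 2) D e z

/-- **S4** (from `IrrStmt`): the orbifold base `B(f, Δ)` of a fibration of a compact surface onto a curve is a rational
boundary, and `f : (X, Δ) → (Y, B(f, Δ))` is a morphism of orbifolds in codimension one. -/
def S4Stmt : Prop :=
  ∀ (X Y : Type) [TopologicalSpace X] [T2Space X] [CompactSpace X] [ConnectedSpace X]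
    [ChartedSpace (Cm 2) X] [IsManifold 𝓘(ℂ, Cm 2) ω X] [TopologicalSpace Y] [T2Space Y]
    [ChartedSpace (Cm 1) Y] [IsManifold 𝓘(ℂ, Cm 1) ω Y] (f : X → Y) (Δ : Set X → ℝ),
    ContMDiff 𝓘(ℂ, Cm 2) 𝓘(ℂ, Cm 1) ω f → (∀ y, IsConnected (f ⁻¹' {y})) →
    J.IsSNC (Cm 2) Δ → ∀ Γ : Set Y → ℝ, Γ = TZ.S.base (Cm 2) (Cm 1) f Δ →
    {G | Γ G ≠ 0}.Finite ∧ (∀ G, Γ G ≠ 0 → J.IsPrime (Cm 1) G) ∧
    (∀ G, ∃ q : ℚ, Γ G = q ∧ 0 ≤ q ∧ q ≤ 1) ∧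
    (∀ z G, Γ G ≠ 0 → f z ∈ G →
      z ∈ closure {z' | (∃ G, Γ G ≠ 0 ∧ f z' ∈ G) ∧
        ∀ᶠ y in 𝓝 (f z'), TZ.S.SNCAt (Cm 1) Γ y}) ∧
    TZ.S.OrbMor (Cm 2) (Cm 1) f Δ Γ

end Vale.Agent.P281.H511.Surf
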